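import Vale.Agent.P368.Final

namespace Vale.Agent.Results.P368.ParityQAC

open Vale.Agent.P368

theorem result :
    (¬ ∃ (d : ℕ) (p : Polynomial ℕ) (ε : ℝ), 0 < ε ∧ ∀ n : ℕ, 1 ≤ n →
      ∃ (N : ℕ) (C : List (List (Gate N))) (out : Fin N), n ≤ N ∧ N ≤ p.eval n ∧ C.length ≤ d ∧
        (∀ L ∈ C, IsLayer L) ∧ ∀ x : Fin n → Bool, 1 / 2 + ε ≤ prob C out x (par x)) ∧
    (∀ (d c : ℕ) (δ : ℝ), 0 < δ → ∃ n₀ : ℕ, ∀ n ≥ n₀, ∀ N : ℕ, n ≤ N → N ≤ n ^ c →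
      ∀ C : List (List (Gate N)), C.length ≤ d → (∀ L ∈ C, IsLayer L) → ∀ out : Fin N,
        |corr n C out| ≤ 2 * Real.exp (-(n : ℝ) ^ (1 - δ))) := by
  refine ⟨?_, corr_small⟩
  rintro ⟨d, p, ε, hε, h⟩
  obtain ⟨c, hc⟩ := poly_le p
  obtain ⟨n0, h0⟩ := no_adv d c ε hε
  obtain ⟨N, C, out, h1, h2, h3, h4, h5⟩ := h (max n0 2) (le_trans (by norm_num) (le_max_right _ _))
  obtain ⟨x, hx⟩ := h0 _ (le_max_left _ _) N h1 (h2.trans (hc _ (le_max_right _ _))) C h3 h4 out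
  exact absurd (h5 x) (not_le.mpr hx)

end Vale.Agent.Results.P368.ParityQAC
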